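import Mathlib
import Vale.Agent.Lib.P229.helper2.Main

namespace Vale.Agent.Results.P229.A_TranslationInvariant

open scoped ContDiff
open Real

/-- Every smooth Riemannian metric `A(t) dt² + 2 B(t) dt dθ + C(t) dθ²` on the plane whose
coefficients do not depend on `θ` admits, on every strip `(a, b) × ℝ`, a smooth isometric
immersion into Euclidean three-space; in particular it is locally smoothly realizable in `ℝ³`
at every point, whatever the zero set of its curvature. -/
theorem result : ∀ (A B C : ℝ → ℝ),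
    ContDiff ℝ ∞ A → ContDiff ℝ ∞ B → ContDiff ℝ ∞ C →
    (∀ t, 0 < C t) → (∀ t, 0 < A t * C t - B t ^ 2) →
    ∀ a b : ℝ, ∃ F : ℝ × ℝ → EuclideanSpace ℝ (Fin 3),
      ContDiffOn ℝ ∞ F (Set.Ioo a b ×ˢ (Set.univ : Set ℝ)) ∧
      ∀ p ∈ Set.Ioo a b ×ˢ (Set.univ : Set ℝ), ∀ v w : ℝ × ℝ,
        inner ℝ (fderiv ℝ F p v) (fderiv ℝ F p w) =
          A p.1 * (v.1 * w.1) + B p.1 * (v.1 * w.2 + v.2 * w.1) + C p.1 * (v.2 * w.2) := by
  intro A B C hA hB hC hCpos hdet a b
  exact Vale.Agent.Lib.P229.helper2.exists_revolution_immersion A B C hA hB hC hCpos hdet a b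

end Vale.Agent.Results.P229.A_TranslationInvariant
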